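import Crest.Agent.X262.Surf.Defs
import Crest.Agent.X277.Neg.Loc

/-!
# X262/Gen (helper76): the normalisation in a finite extension is generated in one degree

* `exists_reg` : on a normal model the sections of `(m + 1) H` are generated by those of `m H`;
* `genStmt : Surf.GenStmt`.
-/

set_option autoImplicit false
set_option linter.unusedSectionVars false

noncomputable section

namespace Crest.Agent.X262.Gen

open Crest.Agent.X277 Crest.Agent.X277.Lef Crest.Agent.X277.AN.G1 Crest.Agent.X277.BD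
open Crest.Agent.X277.BD.Br Crest.Agent.X277.Pst Finset
open Crest.Agent.R274 Defs_781 Ses_781 Lat_781 Ser_781 Coh_413

section Reg

universe u

variable {k F : Type u} [Field k] [Field F] [Algebra k F] [CharZero k]

theorem mem_Sec_iff (M : Mdl k F) (m : ℕ) {x : F} :
    x ∈ (m • M.H).Sec ↔ ∀ i, M.t i ^ (-(m : ℤ)) * x ∈ M.X.A {i} := by
  have key : ∀ i (V : RZ k F), M.In V {i} →
      (M.t i ^ (-(m : ℤ)) * x ∈ V.1 ↔ V.v x ≤ (m • M.H).val V) := fun i V hV => by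
    rw [val_nsmul, ← Mdl.in_singleton.1 hV, ← map_pow, RZ.le_iff (pow_ne_zero _ (M.c.t_ne i)),
      zpow_neg, zpow_natCast, mul_comm, div_eq_mul_inv]
  refine ⟨fun h i => Mdl.mem_A.2 fun V hV => (key i V hV).2 (h V), fun h V => ?_⟩
  obtain ⟨i, hi⟩ := M.exists_in V
  exact (key i V hi).1 (Mdl.mem_A.1 (h i) V hi)

/-- the section ring is generated by the coordinates in large degrees -/
theorem exists_reg (M : Mdl k F) : ∃ m₀ : ℕ, ∀ m, m₀ ≤ m → ∀ φ ∈ ((m + 1) • M.H).Sec,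
    ∃ ψ : Fin (dim k F + 1) → F, (∀ j, ψ j ∈ (m • M.H).Sec) ∧ φ = ∑ j, ψ j * M.t j := by
  classical
  let O : Lat M.X.toCoord F := (XO M.X).toLat
  let N : Lat M.X.toCoord (Fin (dim k F + 1) → F) := piLat fun _ => tw O (-1)
  let g : (Fin (dim k F + 1) → F) →ₗ[F] F := Fintype.linearCombination F M.t
  have hN : ∀ {I : Finset (Fin (dim k F + 1))} {i}, i ∈ I → ∀ x,
      x ∈ N.M I ↔ ∀ j, M.t i * x j ∈ M.X.A I := fun hi x => by
    refine mem_piFam.trans (forall_congr' fun j => ?_)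
    refine (mem_tw_iff hi).trans ?_
    rw [neg_neg, zpow_one]
    rfl
  have h1 : N.toFam.Maps O.toFam (kl k g) := by
    rintro I ⟨i, hi⟩ x hx
    change ∑ j, x j • M.t j ∈ M.X.A I
    refine Subalgebra.sum_mem _ fun j _ => ?_
    have e : x j • M.t j = M.t i * x j * (M.t j / M.t i) := by
      have := M.c.t_ne i
      rw [smul_eq_mul]
      field_simp
    rw [e]
    exact mul_mem ((hN hi x).1 hx j) (div_mem_A (X := M.X) hi j)
  have h2 : ∀ I : Finset (Fin (dim k F + 1)), I.Nonempty → ∀ z ∈ O.M I, ∃ y ∈ N.M I, g y = z := by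
    rintro I ⟨i, hi⟩ z hz
    refine ⟨Pi.single i (z / M.t i), (hN hi _).2 fun j => ?_, ?_⟩
    · by_cases hj : j = i
      · rw [hj, Pi.single_eq_same, mul_div_cancel₀ _ (M.c.t_ne i)]
        exact hz
      · rw [Pi.single_eq_of_ne hj, mul_zero]
        exact zero_mem _
    · change ∑ j, _ • M.t j = z
      rw [sum_eq_single i, Pi.single_eq_same, smul_eq_mul, div_mul_cancel₀ _ (M.c.t_ne i)]
      · intro j _ hj
        rw [Pi.single_eq_of_ne hj, zero_smul]
      · simp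
  have E := exact_ker h1 h2
  obtain ⟨e₀, he⟩ := serre_vanishing
    (comap N (LinearMap.ker g).subtype (Submodule.subtype_injective _))
  refine ⟨e₀.toNat, fun m hm φ hφ => ?_⟩
  have E' := exact_tw E ((m + 1 : ℕ) : ℤ)
  obtain ⟨y, hy, hy'⟩ := Gg_413.Γ_surj E'.maps'
    (E'.ses.ψH_surjective 0 (he _ (by omega) 1 one_pos)) (z := φ) (mem_Γ.2 fun i =>
      (mem_tw_iff (mem_singleton_self i)).2 ((mem_Sec_iff M _).1 hφ i))
  refine ⟨y, fun j => (mem_Sec_iff M m).2 fun i => ?_, hy'.symm⟩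
  have h3 := (hN (mem_singleton_self i) _).1 ((mem_tw_iff (mem_singleton_self i)).1 (mem_Γ.1 hy i)) j
  convert h3 using 1
  change _ = M.t i * (M.t i ^ (-((m + 1 : ℕ) : ℤ)) * y j)
  rw [← mul_assoc, mul_comm (M.t i), ← zpow_add_one₀ (M.c.t_ne i)]
  congr 2
  omega

end Reg

variable {E F : Type} [Field E] [Field F] [Algebra ℂ E] [Algebra ℂ F] [Algebra E F]
  [IsScalarTower ℂ E F]

open Surf (tw Gen)

theorem A_le_loc (B : PModel ℂ E) {i : Fin (B.N + 1)} {V : RZ ℂ E}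
    (h : V.v (B.y i) = (oP B).val V) : B.A i ≤ loc (oP B) V := by
  refine Algebra.adjoin_le ?_
  rintro _ ⟨j, rfl⟩
  exact div_mem_loc (m := 1) (by simpa using y_mem_Sec j) (by simpa using y_mem_Sec i)
    (by simpa using h)

theorem lp_le_loc {B : PModel ℂ E} {x : Pts B} {V : RZ ℂ E} (h : Cns.Ov x V.1) :
    (lp x).O ≤ loc (oP B) V := by
  intro f hf
  obtain ⟨i, hi⟩ := exists_pat x
  have h1 := A_le_loc B (at_y hi V h)
  have h2 := hf
  rw [lp_eq hi, mem_lpAt] at h2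
  obtain ⟨a, c, hc, h3⟩ := h2
  have h4 : ev (c : E) x ≠ 0 := by
    change (lp x).v _ ≠ 0
    rwa [lp_eq hi, lpAt_v]
  have h5 := ev_ne_iff'.1 h4 V h
  have h6 : f = a * (c : E)⁻¹ := by
    rw [← h3, mul_inv_cancel_right₀ (RZ.ne_zero_iff.1 (h5 ▸ one_ne_zero))]
  rw [h6]
  exact mul_mem (h1 a.2) (Neg.inv_mem_loc (h1 c.2) h5)

theorem mem_loc_top (B : PModel ℂ E) (f : E) : f ∈ loc (oP B) (RZ.top ℂ E) := by
  have h1 := A_le_loc B (i := 0) (V := RZ.top ℂ E) (by rw [RZ.v_top (B.y_ne 0), val_top])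
  obtain ⟨a, ha, c, hc, hc0, rfl⟩ := B.frac' 0 f
  rw [div_eq_mul_inv]
  exact mul_mem (h1 ha) (Neg.inv_mem_loc (h1 hc) (RZ.v_top hc0))

theorem bir_oP (B : PModel ℂ E) : Bir (oP B) := fun f => by
  obtain ⟨m, g, h1, h2, h3⟩ := mem_loc_top B f
  exact ⟨m, g, h1, ne_of_val h2, h3⟩

/-- an element which is integral over a local ring of the model becomes a section -/
theorem exists_mul_mem {H : BD ℂ E} {V : RZ ℂ E} {R : Type} [CommRing R] [Algebra R E]
    [Algebra R F] [IsScalarTower R E F] (hR : ∀ r : R, algebraMap R E r ∈ loc H V) {φ : F}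
    (hφ : IsIntegral R φ) : ∃ (m : ℕ) (g : E), g ∈ (m • H).Sec ∧ V.v g = (m • H).val V ∧
      g • φ ∈ (m • pb (tw E F) H).Sec := by
  classical
  obtain ⟨p, hp, hy⟩ := hφ
  obtain ⟨m, g, h1, h2, h3⟩ := Neg.exists_gen_fin (A := H) (V := V)
    (p.coeffs.image (algebraMap R E)) fun x hx => by
      obtain ⟨r, -, rfl⟩ := Finset.mem_image.1 hx
      exact hR r
  refine ⟨m, g, h1, h2, fun W => ?_⟩
  have h0 : 0 < W.v (algebraMap E F g) := RZ.pos ((map_ne_zero _).2 (ne_of_val h2))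
  rw [Algebra.smul_def, map_mul, mul_comm, ← le_div_iff₀ h0, ← map_nsmul]
  refine Neg.v_le_of_monic W.v hp hy ((one_le_div₀ h0).2 (pb_mem_Sec (α := tw E F) h1 W))
    fun i => ?_
  by_cases hi : p.coeff i = 0
  · simp [hi]
  · rw [le_div_iff₀ h0, ← map_mul, IsScalarTower.algebraMap_apply R E F, ← map_mul]
    exact pb_mem_Sec (α := tw E F)
      (h3 _ (Finset.mem_image_of_mem _ (Polynomial.coeff_mem_coeffs hi))) W

/-- from global to local generation -/
theorem exists_loc {H : BD ℂ E} (hH : Free H) {m₀ n : ℕ} {s : Fin n → F}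
    (hs : ∀ m : ℕ, ∀ φ ∈ ((m₀ + m) • pb (tw E F) H).Sec,
      ∃ τ : Fin n → E, (∀ j, τ j ∈ (m • H).Sec) ∧ φ = ∑ j, τ j • s j)
    {V : RZ ℂ E} {R : Type} [CommRing R] [Algebra R E]
    [Algebra R F] [IsScalarTower R E F] (hR : ∀ r : R, algebraMap R E r ∈ loc H V) {φ : F}
    (hφ : IsIntegral R φ) : ∃ h ∈ (m₀ • H).Sec, V.v h = (m₀ • H).val V ∧
      ∃ τ : Fin n → E, (∀ j, τ j ∈ loc H V) ∧ h • φ = ∑ j, τ j • s j := by
  obtain ⟨m, g, h1, h2, h3⟩ := exists_mul_mem hR hφ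
  obtain ⟨h, h4, h5⟩ := (hH.nsmul m₀).exists_gen V
  have h6 := mul_mem_Sec (pb_mem_Sec (α := tw E F) h4) h3
  rw [map_nsmul, ← add_nsmul] at h6
  obtain ⟨τ, h7, h8⟩ := hs m _ h6
  refine ⟨h, h4, h5, fun j => τ j / g, fun j => div_mem_loc (h7 j) h1 h2, ?_⟩
  have h9 : h • φ = g⁻¹ • (tw E F h * g • φ) := by
    rw [mul_smul_comm, smul_smul, inv_mul_cancel₀ (ne_of_val h2), one_smul, Algebra.smul_def]
    rfl
  rw [h9, h8, smul_sum]
  exact sum_congr rfl fun j _ => by simp only [smul_smul, div_eq_inv_mul]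

theorem exists_glob [Algebra.EssFiniteType ℂ E] [FiniteDimensional E F] (B : PModel ℂ E) :
    ∃ (m₀ n : ℕ) (s : Fin n → F), (∀ j, s j ∈ (m₀ • pb (tw E F) (oP B)).Sec) ∧
      ∀ m : ℕ, ∀ φ ∈ ((m₀ + m) • pb (tw E F) (oP B)).Sec,
        ∃ τ : Fin n → E, (∀ j, τ j ∈ (m • oP B).Sec) ∧ φ = ∑ j, τ j • s j := by
  have : Algebra.EssFiniteType ℂ F := Algebra.EssFiniteType.comp ℂ E F
  have e : pb (tw E F) (oP B) = mxf ℂ fun i => tw E F (B.y i) := pb_mxf _ _
  have h0 : ∃ i, tw E F (B.y i) ≠ 0 := ⟨0, (map_ne_zero _).2 (B.y_ne 0)⟩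
  have h1 : ∀ f : E, algebraMap E F f ∈ (pb (tw E F) (oP B)).sf := by
    have h2 : ∀ a ∈ B.A 0, algebraMap E F a ∈ (pb (tw E F) (oP B)).sf := by
      intro a ha
      have : B.A 0 ≤ (pb (tw E F) (oP B)).sf.toSubalgebra.comap (tw E F) := by
        refine Algebra.adjoin_le ?_
        rintro _ ⟨j, rfl⟩
        change tw E F _ ∈ (pb (tw E F) (oP B)).sf
        rw [map_div₀]
        exact div_mem_sf (pb_mem_Sec (y_mem_Sec j)) (pb_mem_Sec (y_mem_Sec 0))
      exact this ha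
    intro f
    obtain ⟨a, ha, c, hc, -, rfl⟩ := B.frac' 0 f
    rw [map_div₀]
    exact div_mem (h2 a ha) (h2 c hc)
  have h2 : Algebra.IsAlgebraic (pb (tw E F) (oP B)).sf F := by
    letI : Algebra E (pb (tw E F) (oP B)).sf :=
      ((algebraMap E F).codRestrict (pb (tw E F) (oP B)).sf h1).toAlgebra
    haveI : IsScalarTower E (pb (tw E F) (oP B)).sf F :=
      IsScalarTower.of_algebraMap_eq fun _ => rfl
    exact Algebra.IsAlgebraic.tower_top (K := E) _
  obtain ⟨M, hM, h3⟩ := exists_mdl_of (l := fun i => tw E F (B.y i))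
    (fun j => pb_mem_Sec (y_mem_Sec j)) (e ▸ exists_val_mxf h0) h2
  have h4 : ∀ j, ∃ u ∈ (oP B).Sec, M.t j = algebraMap E F u := fun j => by
    obtain ⟨c, hc⟩ := (Submodule.mem_span_range_iff_exists_fun ℂ).1 (h3 j)
    refine ⟨∑ i, c i • B.y i, Submodule.sum_mem _ fun i _ => Submodule.smul_mem _ _ (y_mem_Sec i), ?_⟩
    rw [← hc]
    change _ = tw E F _
    simp only [map_sum, map_smul]
  choose u hu hu' using h4
  obtain ⟨m₀, h5⟩ := exists_reg M
  have := Mdl.fin_Sec (nsmul_mem (Mdl.H_mem (M := M)) m₀)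
  rw [hM] at h5 this
  let b := Module.finBasis ℂ (m₀ • pb (tw E F) (oP B)).Sec
  refine ⟨m₀, _, fun j => b j, fun j => (b j).2, fun m => ?_⟩
  induction m with
  | zero =>
    intro φ hφ
    refine ⟨fun j => algebraMap ℂ E (b.repr ⟨φ, hφ⟩ j), fun j => ?_, ?_⟩
    · simp only [zero_nsmul, Algebra.algebraMap_eq_smul_one]
      exact Submodule.smul_mem _ _ one_mem_Sec
    · have := congrArg Subtype.val (b.sum_repr ⟨φ, hφ⟩)
      simp only [AddSubmonoidClass.coe_finset_sum, SetLike.val_smul] at this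
      simp only [algebraMap_smul]
      exact this.symm
  | succ m ih =>
    intro φ hφ
    obtain ⟨ψ, h6, rfl⟩ := h5 (m₀ + m) (Nat.le_add_right _ _) φ hφ
    choose τ h7 h8 using fun i => ih (ψ i) (h6 i)
    refine ⟨fun j => ∑ i, τ i j * u i, fun j => Submodule.sum_mem _ fun i _ => ?_, ?_⟩
    · rw [succ_nsmul]
      exact mul_mem_Sec (h7 i j) (hu i)
    · simp only [sum_smul]
      rw [sum_comm]
      refine sum_congr rfl fun i _ => ?_
      rw [h8 i, hu', sum_mul]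
      refine sum_congr rfl fun j _ => ?_
      rw [mul_comm (τ i j), mul_smul, Algebra.smul_def (u i), mul_comm]

/-- **the normalisation is finite** -/
theorem genStmt : Surf.GenStmt := by
  intro E F _ _ _ _ _ _ _ _ B
  obtain ⟨m₀, n, s, h1, h2⟩ := exists_glob (F := F) B
  refine ⟨m₀, n, s, h1, h2, fun x h hx φ hφ => ?_, fun V hV h hh φ hφ => ?_, ?_⟩
  · obtain ⟨V, hV, hd⟩ := exists_dom x
    obtain ⟨h', h3, h4, τ, h5, h6⟩ := exists_loc free_oP h2 (V := V)
      (fun r : (lp x).O => lp_le_loc hV r.2) hφ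
    have h7 := hx.of_dom hV hd h3 h4
    refine ⟨fun j => h / h' * τ j, fun j => mul_mem (hx.div_mem_of_le h7 le_rfl) ?_, ?_⟩
    · obtain ⟨m, g, h8, h9, h10⟩ := h5 j
      obtain ⟨g', hg'⟩ := nsmul_mem (oP_mem (P := B)) m x
      have := (hg'.of_dom hV hd h8 h9).div_mem h10
      rwa [mul_div_cancel_right₀ _ (ne_of_val h9)] at this
    · simp only [mul_smul]
      rw [← smul_sum, ← h6, smul_smul, div_mul_cancel₀ _ h7.ne]
  · obtain ⟨h', h3, h4, τ, h5, h6⟩ := exists_loc free_oP h2 (V := V)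
      (fun r : V.1 => Neg.le_loc free_oP (bir_oP B) hV r.2) hφ
    refine ⟨fun j => h / h' * τ j, fun j => mul_mem ?_ (mem_of_loc (h5 j)), ?_⟩
    · exact (RZ.le_iff (ne_of_val h4)).1 (hh.trans h4.symm).le
    · simp only [mul_smul]
      rw [← smul_sum, ← h6, smul_smul, div_mul_cancel₀ _ (ne_of_val h4)]
  · refine Submodule.eq_top_iff'.2 fun φ => ?_
    obtain ⟨h', -, h4, τ, -, h6⟩ := exists_loc free_oP h2 (V := RZ.top ℂ E)
      (fun r : E => mem_loc_top B r) (Algebra.IsIntegral.isIntegral (R := E) φ)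
    rw [← Submodule.smul_mem_iff _ (ne_of_val h4), h6]
    exact Submodule.sum_mem _ fun j _ => Submodule.smul_mem _ _ (Submodule.subset_span ⟨j, rfl⟩)

end Crest.Agent.X262.Gen
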